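import Vale.Agent.P181.H583.HWDef
import Vale.Agent.P181.O2.H726.Van

set_option autoImplicit false

/-!
# P181, O2: the spaces `BJ`, `GJ` (tail highest weight polynomials in `J` columns)
-/

open MvPolynomial

namespace Vale.Agent.P181.O2.H563

open Vale.Agent.P181.T4 (rowOp rowOp_apply)

/-- Tail highest weight polynomials (row `0` = row two, rows `i.succ` = the tail) with all
monomials in `P`, invariant under the permutations in `Γ`. -/
def Sp (m : ℕ) (κ : Type) [Fintype κ] (P : (Fin (m + 1) × κ →₀ ℕ) → Prop)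
    (Γ : Set (Equiv.Perm κ)) : Submodule ℂ (MvPolynomial (Fin (m + 1) × κ) ℂ) where
  carrier := {f | (∀ v, coeff v f ≠ 0 → P v) ∧
    (∀ s i : Fin m, s < i → rowOp s.succ i.succ f = 0) ∧
    ∀ e ∈ Γ, rename (fun p : Fin (m + 1) × κ => (p.1, e p.2)) f = f}
  zero_mem' := ⟨fun v hv => absurd (coeff_zero v) hv, fun _ _ _ => map_zero _,
    fun _ _ => map_zero _⟩
  add_mem' := by
    rintro f g ⟨hf1, hf2, hf3⟩ ⟨hg1, hg2, hg3⟩
    refine ⟨fun v hv => ?_, fun s i h => by rw [map_add, hf2 s i h, hg2 s i h, add_zero],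
      fun e he => by rw [map_add, hf3 e he, hg3 e he]⟩
    rw [coeff_add] at hv
    by_cases h : coeff v f = 0
    · rw [h, zero_add] at hv
      exact hg1 v hv
    · exact hf1 v h
  smul_mem' := by
    rintro c f ⟨hf1, hf2, hf3⟩
    refine ⟨fun v hv => ?_, fun s i h => by rw [map_smul, hf2 s i h, smul_zero],
      fun e he => by rw [map_smul, hf3 e he]⟩
    rw [coeff_smul, smul_eq_mul] at hv
    exact hf1 v (right_ne_zero_of_mul hv)

lemma mem_Sp {m : ℕ} {κ : Type} [Fintype κ] {P : (Fin (m + 1) × κ →₀ ℕ) → Prop}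
    {Γ : Set (Equiv.Perm κ)} {f : MvPolynomial (Fin (m + 1) × κ) ℂ} :
    f ∈ Sp m κ P Γ ↔ (∀ v, coeff v f ≠ 0 → P v) ∧
      (∀ s i : Fin m, s < i → rowOp s.succ i.succ f = 0) ∧
      ∀ e ∈ Γ, rename (fun p : Fin (m + 1) × κ => (p.1, e p.2)) f = f := Iff.rfl

/-- Row degrees `M` (row `0`) and `tau` (the tail). -/
def Rd {m : ℕ} {κ : Type} [Fintype κ] (tau : Fin m → ℕ) (M : ℕ)
    (v : Fin (m + 1) × κ →₀ ℕ) : Prop :=
  ∑ c, v (0, c) = M ∧ ∀ i : Fin m, ∑ c, v (i.succ, c) = tau i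

/-- `J` columns, all of tail degree at least one, `x`-exponents at most `Z`. -/
def BJ (m J Z : ℕ) (tau : Fin m → ℕ) (M : ℕ) :
    Submodule ℂ (MvPolynomial (Fin (m + 1) × Fin J) ℂ) :=
  Sp m (Fin J) (fun v => Rd tau M v ∧ ∀ j, (∃ i : Fin m, v (i.succ, j) ≠ 0) ∧ v (0, j) ≤ Z)
    Set.univ

/-- `J` columns with `x`-exponents in `[2, Z]` and one more column, of tail degree two. -/
def GJ (m J Z : ℕ) (tau : Fin m → ℕ) (M : ℕ) :
    Submodule ℂ (MvPolynomial (Fin (m + 1) × Option (Fin J)) ℂ) :=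
  Sp m (Option (Fin J)) (fun v => Rd tau M v ∧ v (0, none) = 0 ∧ ∑ i : Fin m, v (i.succ, none) = 2
    ∧ ∀ j : Fin J, 2 ≤ v (0, some j) ∧ v (0, some j) ≤ Z) {e | e none = none}

/-- Polynomials with support in a finite set. -/
lemma fin_of_sup {τ : Type*} {S : Submodule ℂ (MvPolynomial τ ℂ)} (s : Set (τ →₀ ℕ))
    (hs : s.Finite) (h : ∀ f ∈ S, ∀ v, coeff v f ≠ 0 → v ∈ s) : Module.Finite ℂ S := by
  have := hs.to_subtype
  have : Module.Finite ℂ (restrictSupport ℂ s) := Module.Finite.of_basis (basisRestrictSupport ℂ s)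
  have hle : S ≤ restrictSupport ℂ s := by
    intro f hf v hv
    exact h f hf v (MvPolynomial.mem_support_iff.1 hv)
  exact Module.Finite.of_injective (Submodule.inclusion hle) (Submodule.inclusion_injective hle)

lemma fin_Rd {m : ℕ} {κ : Type} [Fintype κ] (tau : Fin m → ℕ) (M : ℕ) :
    {v : Fin (m + 1) × κ →₀ ℕ | Rd tau M v}.Finite := by
  classical
  refine Set.Finite.subset (Set.finite_Iic
    (Finsupp.equivFunOnFinite.symm fun _ : Fin (m + 1) × κ => M + ∑ i, tau i)) ?_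
  rintro v ⟨h0, h1⟩ ⟨k, c⟩
  rw [Finsupp.equivFunOnFinite_symm_apply_apply]
  refine Fin.cases ?_ (fun i => ?_) k
  · have := Finset.single_le_sum (f := fun c => v (0, c)) (fun _ _ => Nat.zero_le _)
      (Finset.mem_univ c)

    omega
  · have := Finset.single_le_sum (f := fun c => v (i.succ, c)) (fun _ _ => Nat.zero_le _)
      (Finset.mem_univ c)
    have h2 := Finset.single_le_sum (f := tau) (fun _ _ => Nat.zero_le _) (Finset.mem_univ i)
    have h3 := h1 i

    omega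

lemma finSp {m : ℕ} {κ : Type} [Fintype κ] {P : (Fin (m + 1) × κ →₀ ℕ) → Prop}
    {Γ : Set (Equiv.Perm κ)} (tau : Fin m → ℕ) (M : ℕ) (h : ∀ v, P v → Rd tau M v) :
    Module.Finite ℂ (Sp m κ P Γ) :=
  fin_of_sup _ (fin_Rd tau M) fun _ hf v hv => h v (hf.1 v hv)

instance finBJ (m J Z : ℕ) (tau : Fin m → ℕ) (M : ℕ) : Module.Finite ℂ (BJ m J Z tau M) :=
  finSp tau M fun _ h => h.1

instance finGJ (m J Z : ℕ) (tau : Fin m → ℕ) (M : ℕ) : Module.Finite ℂ (GJ m J Z tau M) :=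
  finSp tau M fun _ h => h.1

end Vale.Agent.P181.O2.H563
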