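import Vale.Agent.P181.O2.H563.Defs

set_option autoImplicit false

/-!
# P181, O2: the pull-out as a dimension inequality
-/

open MvPolynomial

namespace Vale.Agent.P181.O2.H563

open Vale.Agent.P181.T4 (rowOp rowOp_apply)

variable {m : ℕ}

lemma der_sum {τ ι : Type*} (s : Finset ι)
    (D : ι → Derivation ℂ (MvPolynomial τ ℂ) (MvPolynomial τ ℂ)) (f : MvPolynomial τ ℂ) :
    (∑ i ∈ s, D i) f = ∑ i ∈ s, D i f := by
  classical
  induction s using Finset.induction_on with
  | empty => rw [Finset.sum_empty, Finset.sum_empty, Derivation.zero_apply]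
  | insert a s ha ih =>
    rw [Finset.sum_insert ha, Finset.sum_insert ha, Derivation.add_apply, ih]

section Der

variable {κ : Type} [Fintype κ]

/-- The row operator as a derivation. -/
noncomputable def rD (s i : Fin (m + 1)) :
    Derivation ℂ (MvPolynomial (Fin (m + 1) × κ) ℂ) (MvPolynomial (Fin (m + 1) × κ) ℂ) :=
  ∑ c, (X (s, c) : MvPolynomial (Fin (m + 1) × κ) ℂ) • pderiv (i, c)

lemma rD_apply (s i : Fin (m + 1)) (f : MvPolynomial (Fin (m + 1) × κ) ℂ) :
    rD s i f = rowOp s i f := by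
  rw [rowOp_apply, rD, der_sum]
  rfl

lemma rD_X (s i : Fin (m + 1)) (k : Fin (m + 1)) (c : κ) :
    rD s i (X (k, c)) = if k = i then X (s, c) else 0 := by
  classical
  rw [rD_apply, rowOp_apply]
  by_cases h : k = i
  · rw [if_pos h, Finset.sum_eq_single c]
    · rw [h, pderiv_X_self, mul_one]
    · intro b _ hb
      rw [pderiv_X_of_ne (fun h' => hb (congrArg Prod.snd h').symm), mul_zero]
    · intro h'
      exact absurd (Finset.mem_univ _) h'
  · rw [if_neg h]
    refine Finset.sum_eq_zero fun b _ => ?_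
    rw [pderiv_X_of_ne (fun h' => h (congrArg Prod.fst h')), mul_zero]

end Der

variable {J : ℕ}

/-- `E_r(v) = ∑ j, x_j ^ r (v . ∂_(tail of column j))`, `v` = column `none`. -/
noncomputable def eD (r : ℕ) :
    Derivation ℂ (MvPolynomial (Fin (m + 1) × Option (Fin J)) ℂ)
      (MvPolynomial (Fin (m + 1) × Option (Fin J)) ℂ) :=
  ∑ j : Fin J, ∑ i : Fin m,
    (X (0, some j) ^ r * X (i.succ, none) : MvPolynomial (Fin (m + 1) × Option (Fin J)) ℂ) •
      pderiv (i.succ, some j)

lemma eD_apply (r : ℕ) (f : MvPolynomial (Fin (m + 1) × Option (Fin J)) ℂ) :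
    eD r f = ∑ j : Fin J, ∑ i : Fin m,
      X (0, some j) ^ r * X (i.succ, none) * pderiv (i.succ, some j) f := by
  rw [eD, der_sum]
  refine Finset.sum_congr rfl fun j _ => ?_
  rw [der_sum]
  rfl

lemma eD_X_zero (r : ℕ) (c : Option (Fin J)) :
    eD (m := m) r (X (0, c)) = 0 := by
  rw [eD_apply]
  refine Finset.sum_eq_zero fun j _ => Finset.sum_eq_zero fun i _ => ?_
  rw [pderiv_X_of_ne (fun h => (Fin.succ_ne_zero i) (congrArg Prod.fst h).symm), mul_zero]

lemma eD_X_none (r : ℕ) (k : Fin (m + 1)) :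
    eD (J := J) r (X (k, none)) = 0 := by
  rw [eD_apply]
  refine Finset.sum_eq_zero fun j _ => Finset.sum_eq_zero fun i _ => ?_
  rw [pderiv_X_of_ne (fun h => by simpa using congrArg Prod.snd h), mul_zero]

lemma eD_X_succ (r : ℕ) (k : Fin m) (j : Fin J) :
    eD r (X (k.succ, some j)) = X (0, some j) ^ r * X (k.succ, none) := by
  rw [eD_apply, Finset.sum_eq_single j, Finset.sum_eq_single k]
  · rw [pderiv_X_self, mul_one]
  · intro i _ hi
    rw [pderiv_X_of_ne (fun h => hi ((Fin.succ_injective _) (congrArg Prod.fst h)).symm), mul_zero]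
  · intro h
    exact absurd (Finset.mem_univ _) h
  · intro l _ hl
    refine Finset.sum_eq_zero fun i _ => ?_
    rw [pderiv_X_of_ne (fun h => hl (by simpa using (congrArg Prod.snd h).symm)), mul_zero]
  · intro h
    exact absurd (Finset.mem_univ _) h

lemma eD_comm (r : ℕ) (s i : Fin m) (f : MvPolynomial (Fin (m + 1) × Option (Fin J)) ℂ) :
    rD s.succ i.succ (eD r f) = eD r (rD s.succ i.succ f) := by
  have h : ⁅(rD s.succ i.succ : Derivation ℂ (MvPolynomial (Fin (m + 1) × Option (Fin J)) ℂ)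
      (MvPolynomial (Fin (m + 1) × Option (Fin J)) ℂ)),
      (eD r : Derivation ℂ (MvPolynomial (Fin (m + 1) × Option (Fin J)) ℂ)
      (MvPolynomial (Fin (m + 1) × Option (Fin J)) ℂ))⁆ = 0 := by
    apply derivation_ext
    rintro ⟨k, c⟩
    rw [Derivation.commutator_apply, Derivation.zero_apply, sub_eq_zero]
    refine Fin.cases ?_ (fun k' => ?_) k
    · rw [eD_X_zero, map_zero, rD_X, if_neg (Fin.succ_ne_zero i).symm, map_zero]
    · rcases c with _ | j
      · rw [eD_X_none, map_zero, rD_X]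
        split_ifs
        · rw [eD_X_none]
        · rw [map_zero]
      · rw [eD_X_succ, rD_X, Derivation.leibniz, Derivation.leibniz_pow, rD_X, rD_X,
          if_neg (Fin.succ_ne_zero i).symm, smul_zero, smul_zero, smul_zero, add_zero]
        by_cases hk : k'.succ = i.succ
        · rw [if_pos hk, if_pos hk, eD_X_succ, smul_eq_mul]
        · rw [if_neg hk, if_neg hk, smul_zero, map_zero]
  have h1 := congrArg (fun D => D f) h
  simp only [Derivation.commutator_apply, Derivation.zero_apply] at h1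
  exact sub_eq_zero.1 h1

/-- Support of one term. -/
lemma supp_term {τ : Type*} {a b c : τ} {r : ℕ} {g : MvPolynomial τ ℂ} {w : τ →₀ ℕ}
    (h : coeff w (X a ^ r * X b * pderiv c g) ≠ 0) :
    ∃ v, coeff v g ≠ 0 ∧
      w + Finsupp.single c 1 = v + (Finsupp.single a r + Finsupp.single b 1) := by
  classical
  have hm : (X a ^ r * X b : MvPolynomial τ ℂ) =
      monomial (Finsupp.single a r + Finsupp.single b 1) 1 := by
    rw [X_pow_eq_monomial, X, monomial_mul, one_mul]
  rw [hm, coeff_monomial_mul'] at h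
  split_ifs at h with hle
  · rw [one_mul, MvPolynomial.coeff_pderiv] at h
    refine ⟨_, left_ne_zero_of_mul h, ?_⟩
    conv_lhs => rw [← tsub_add_cancel_of_le hle]
    exact add_right_comm _ _ _
  · exact absurd rfl h

lemma supp_eD {r : ℕ} {f : MvPolynomial (Fin (m + 1) × Option (Fin J)) ℂ}
    {w : Fin (m + 1) × Option (Fin J) →₀ ℕ} (h : coeff w (eD r f) ≠ 0) :
    ∃ (v : Fin (m + 1) × Option (Fin J) →₀ ℕ) (i : Fin m) (j : Fin J), coeff v f ≠ 0 ∧
      w + Finsupp.single (i.succ, some j) 1 =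
        v + (Finsupp.single (0, some j) r + Finsupp.single (i.succ, none) 1) := by
  rw [eD_apply, coeff_sum] at h
  obtain ⟨j, -, hj⟩ := Finset.exists_ne_zero_of_sum_ne_zero h
  rw [coeff_sum] at hj
  obtain ⟨i, -, hi⟩ := Finset.exists_ne_zero_of_sum_ne_zero hj
  obtain ⟨v, hv, hw⟩ := supp_term hi
  exact ⟨v, i, j, hv, hw⟩

end Vale.Agent.P181.O2.H563
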