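import Vale.Agent.P181.O2.H563.Pull

set_option autoImplicit false

/-!
# P181, O2: the pull-out as a dimension inequality, end
-/

open MvPolynomial

namespace Vale.Agent.P181.O2.H563

open Vale.Agent.P181.T4 (rowOp rowOp_apply)

/-- An algebra homomorphism which intertwines two derivations on the variables. -/
lemma hom_der {τ τ' : Type*} (φ : MvPolynomial τ ℂ →ₐ[ℂ] MvPolynomial τ' ℂ)
    (D : Derivation ℂ (MvPolynomial τ ℂ) (MvPolynomial τ ℂ))
    (D' : Derivation ℂ (MvPolynomial τ' ℂ) (MvPolynomial τ' ℂ))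
    (h : ∀ p, φ (D (X p)) = D' (φ (X p))) (f : MvPolynomial τ ℂ) : φ (D f) = D' (φ f) := by
  induction f using MvPolynomial.induction_on with
  | C a =>
    rw [derivation_C, map_zero, algHom_C, MvPolynomial.algebraMap_eq, derivation_C]
  | add p q hp hq => rw [map_add, map_add, map_add, map_add, hp, hq]
  | mul_X p n hp =>
    rw [Derivation.leibniz, map_add, smul_eq_mul, smul_eq_mul, map_mul, map_mul, map_mul,
      Derivation.leibniz, smul_eq_mul, smul_eq_mul, hp, h]

lemma der_prod_zero {τ ι : Type*} (D : Derivation ℂ (MvPolynomial τ ℂ) (MvPolynomial τ ℂ))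
    (s : Finset ι) (g : ι → MvPolynomial τ ℂ) (h : ∀ i ∈ s, D (g i) = 0) :
    D (∏ i ∈ s, g i) = 0 := by
  refine Finset.prod_induction g (fun x => D x = 0) (fun x y hx hy => ?_) ?_ h
  · rw [Derivation.leibniz, hx, hy, smul_zero, smul_zero, add_zero]
  · exact Derivation.map_one_eq_zero D

variable {m J : ℕ}

/-- The padding factor. -/
noncomputable def padP (m J : ℕ) : MvPolynomial (Fin (m + 1) × Fin J) ℂ := ∏ j, X (0, j) ^ 2

lemma padP_ne : padP m J ≠ 0 := Finset.prod_ne_zero_iff.2 fun _ _ => pow_ne_zero _ (X_ne_zero _)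

lemma padP_sym (e : Equiv.Perm (Fin J)) :
    rename (fun p : Fin (m + 1) × Fin J => (p.1, e p.2)) (padP m J) = padP m J := by
  rw [padP, map_prod]
  simp only [map_pow, rename_X]
  exact Equiv.prod_comp e fun j => (X (0, j) : MvPolynomial (Fin (m + 1) × Fin J) ℂ) ^ 2

lemma padP_rD (s i : Fin m) : rD s.succ i.succ (padP m J) = 0 := by
  refine der_prod_zero _ _ _ fun j _ => ?_
  rw [Derivation.leibniz_pow, rD_X, if_neg (Fin.succ_ne_zero i).symm, smul_zero, smul_zero]

lemma padP_eq : padP m J = monomial (∑ j, Finsupp.single (0, j) 2) 1 := by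
  rw [padP, monomial_sum_one]
  exact Finset.prod_congr rfl fun j _ => X_pow_eq_monomial

/-- The embedding into one more column. -/
noncomputable def emb : MvPolynomial (Fin (m + 1) × Fin J) ℂ →ₐ[ℂ]
    MvPolynomial (Fin (m + 1) × Option (Fin J)) ℂ :=
  rename fun p => (p.1, some p.2)

lemma emb_rD (s i : Fin (m + 1)) (f : MvPolynomial (Fin (m + 1) × Fin J) ℂ) :
    emb (rD s i f) = rD s i (emb f) := by
  refine hom_der _ _ _ (fun p => ?_) f
  obtain ⟨k, c⟩ := p
  rw [rD_X, emb, rename_X, rD_X]
  split_ifs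
  · rw [rename_X]
  · rw [map_zero]

/-- Monomials of the intermediate spaces. -/
def Pg (Z t : ℕ) (tau : Fin m → ℕ) (M : ℕ) (v : Fin (m + 1) × Option (Fin J) →₀ ℕ) : Prop :=
  Rd tau M v ∧ v (0, none) = 0 ∧ ∑ i : Fin m, v (i.succ, none) = t
    ∧ ∀ j : Fin J, 2 ≤ v (0, some j) ∧ v (0, some j) ≤ Z

lemma Pg_step {Z t r M : ℕ} {tau : Fin m → ℕ} {v w : Fin (m + 1) × Option (Fin J) →₀ ℕ}
    {i : Fin m} {j : Fin J} (hv : Pg Z t tau M v)
    (h : w + Finsupp.single (i.succ, some j) 1 =
      v + (Finsupp.single (0, some j) r + Finsupp.single (i.succ, none) 1)) :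
    Pg (Z + r) (t + 1) tau (M + r) w := by
  classical
  obtain ⟨⟨h1, h2⟩, h3, h4, h5⟩ := hv
  have hp : ∀ (k : Fin (m + 1)) (c : Option (Fin J)),
      w (k, c) + (if i.succ = k ∧ some j = c then 1 else 0) =
      v (k, c) + ((if 0 = k ∧ some j = c then r else 0) +
        (if i.succ = k ∧ none = c then 1 else 0)) := by
    intro k c
    have := DFunLike.congr_fun h (k, c)
    simpa only [Finsupp.add_apply, Finsupp.single_apply, Prod.mk.injEq] using this
  have hz : ∀ c, w (0, c) = v (0, c) + if some j = c then r else 0 := by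
    intro c
    have := hp 0 c
    simpa [Fin.succ_ne_zero] using this
  have hs : ∀ (k : Fin m) (c : Option (Fin J)),
      w (k.succ, c) + (if i = k ∧ some j = c then 1 else 0) =
      v (k.succ, c) + (if i = k ∧ none = c then 1 else 0) := by
    intro k c
    have := hp k.succ c
    simpa [(Fin.succ_ne_zero k).symm, Fin.succ_inj] using this
  refine ⟨⟨?_, fun k => ?_⟩, ?_, ?_, fun l => ?_⟩
  · rw [Finset.sum_congr rfl fun c _ => hz c, Finset.sum_add_distrib, h1,
      Finset.sum_ite_eq Finset.univ (some j) (fun _ => r), if_pos (Finset.mem_univ _)]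
  · have h6 := Finset.sum_congr (s₁ := (Finset.univ : Finset (Option (Fin J)))) rfl
      fun c _ => hs k c
    rw [Finset.sum_add_distrib, Finset.sum_add_distrib, h2 k] at h6
    by_cases hk : i = k
    · simp only [hk, true_and] at h6
      rw [Finset.sum_ite_eq Finset.univ (some j) (fun _ => 1),
        Finset.sum_ite_eq Finset.univ none (fun _ => 1), if_pos (Finset.mem_univ _),
        if_pos (Finset.mem_univ _)] at h6
      omega
    · simp only [hk, false_and, if_false, Finset.sum_const_zero] at h6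
      omega
  · rw [hz, h3]
    simp
  · have h6 : ∀ k : Fin m, w (k.succ, none) = v (k.succ, none) + if i = k then 1 else 0 := by
      intro k
      have := hs k none
      simpa using this
    rw [Finset.sum_congr rfl fun k _ => h6 k, Finset.sum_add_distrib, h4,
      Finset.sum_ite_eq Finset.univ i (fun _ => 1), if_pos (Finset.mem_univ _)]
  · have := h5 l
    rw [hz]
    split_ifs <;> omega

end Vale.Agent.P181.O2.H563
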