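import Vale.Agent.P181.O2.H563.Pull2

set_option autoImplicit false

/-!
# P181, O2: the pull-out as a dimension inequality, main statement
-/

open MvPolynomial

namespace Vale.Agent.P181.O2.H563

open Vale.Agent.P181.T4 (rowOp rowOp_apply)

lemma finrank_le_of_family {ι A B : Type*} [Fintype ι] [AddCommGroup A] [Module ℂ A]
    [AddCommGroup B] [Module ℂ B] (S : Submodule ℂ A) (T : ι → Submodule ℂ B)
    [∀ i, Module.Finite ℂ (T i)] (L : ι → A →ₗ[ℂ] B) (hL : ∀ i, ∀ f ∈ S, L i f ∈ T i)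
    (hi : ∀ f ∈ S, (∀ i, L i f = 0) → f = 0) :
    Module.finrank ℂ S ≤ ∑ i, Module.finrank ℂ (T i) := by
  classical
  let Φ : S →ₗ[ℂ] (i : ι) → T i := LinearMap.pi fun i =>
    ((L i).comp S.subtype).codRestrict (T i) fun f => hL i f.1 f.2
  have hΦ : Function.Injective Φ := by
    rw [← LinearMap.ker_eq_bot, LinearMap.ker_eq_bot']
    intro f hf
    refine Subtype.ext (hi f.1 f.2 fun i => ?_)
    have := congrFun hf i
    exact congrArg Subtype.val this
  have h := LinearMap.finrank_le_finrank_of_injective hΦ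
  rwa [Module.finrank_pi_fintype] at h

variable {m J : ℕ}

lemma Pg_eD {Z t r M : ℕ} {tau : Fin m → ℕ} {f : MvPolynomial (Fin (m + 1) × Option (Fin J)) ℂ}
    (hf : ∀ v, coeff v f ≠ 0 → Pg Z t tau M v) (w : Fin (m + 1) × Option (Fin J) →₀ ℕ)
    (hw : coeff w (eD r f) ≠ 0) : Pg (Z + r) (t + 1) tau (M + r) w := by
  obtain ⟨v, i, j, hv, h⟩ := supp_eD hw
  exact Pg_step (hf v hv) h

lemma sup_pad {Z M : ℕ} {tau : Fin m → ℕ} {g : MvPolynomial (Fin (m + 1) × Fin J) ℂ}
    (hg : ∀ u, coeff u g ≠ 0 → Rd tau M u ∧ ∀ j, u (0, j) ≤ Z)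
    (w : Fin (m + 1) × Fin J →₀ ℕ) (hw : coeff w (padP m J * g) ≠ 0) :
    Rd tau (M + 2 * J) w ∧ ∀ j, 2 ≤ w (0, j) ∧ w (0, j) ≤ Z + 2 := by
  classical
  rw [padP_eq, coeff_monomial_mul'] at hw
  split_ifs at hw with hle
  · rw [one_mul] at hw
    obtain ⟨⟨h1, h2⟩, h3⟩ := hg _ hw
    have hs : ∀ (k : Fin (m + 1)) (c : Fin J),
        (∑ j : Fin J, Finsupp.single ((0 : Fin (m + 1)), j) 2 : Fin (m + 1) × Fin J →₀ ℕ) (k, c) =
          if k = 0 then 2 else 0 := by
      intro k c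
      rw [Finsupp.finsetSum_apply, Finset.sum_eq_single c]
      · rw [Finsupp.single_apply]
        by_cases hk : k = 0
        · rw [if_pos hk, if_pos (by rw [hk])]
        · rw [if_neg hk, if_neg (fun h => hk (congrArg Prod.fst h).symm)]
      · intro b _ hb
        rw [Finsupp.single_apply, if_neg (fun h => hb (congrArg Prod.snd h))]
      · intro h
        exact absurd (Finset.mem_univ _) h
    have h0 : ∀ c, 2 ≤ w (0, c) := by
      intro c
      have := hle (0, c)
      rw [hs 0 c, if_pos rfl] at this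
      exact this
    have h4 : ∀ (k : Fin (m + 1)) (c : Fin J), (w - ∑ j : Fin J,
        Finsupp.single ((0 : Fin (m + 1)), j) 2 : Fin (m + 1) × Fin J →₀ ℕ) (k, c) =
          w (k, c) - if k = 0 then 2 else 0 := by
      intro k c
      rw [Finsupp.tsub_apply, hs]
    refine ⟨⟨?_, fun i => ?_⟩, fun j => ⟨h0 j, ?_⟩⟩
    · rw [Finset.sum_congr rfl fun c _ => h4 0 c] at h1
      rw [if_pos rfl] at h1
      have h5 : ∑ c : Fin J, w (0, c) = ∑ c : Fin J, (w (0, c) - 2) + ∑ _c : Fin J, 2 := by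
        rw [← Finset.sum_add_distrib]
        exact Finset.sum_congr rfl fun c _ => by have := h0 c; omega
      rw [h5, h1, Finset.sum_const, Finset.card_univ, Fintype.card_fin, smul_eq_mul, mul_comm]
    · have h5 := h2 i
      rw [Finset.sum_congr rfl fun c _ => h4 i.succ c] at h5
      simpa using h5
    · have h5 := h3 j
      rw [h4 0 j, if_pos rfl] at h5
      omega
  · exact absurd rfl hw

lemma Pg_emb {Z M : ℕ} {tau : Fin m → ℕ} {g : MvPolynomial (Fin (m + 1) × Fin J) ℂ}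
    (hg : ∀ u, coeff u g ≠ 0 → Rd tau M u ∧ ∀ j, 2 ≤ u (0, j) ∧ u (0, j) ≤ Z)
    (w : Fin (m + 1) × Option (Fin J) →₀ ℕ) (hw : coeff w (emb g) ≠ 0) : Pg Z 0 tau M w := by
  classical
  obtain ⟨u, hu, hc⟩ := coeff_rename_ne_zero _ _ _ hw
  obtain ⟨⟨h1, h2⟩, h3⟩ := hg u hc
  have hinj : Function.Injective fun p : Fin (m + 1) × Fin J => (p.1, some p.2) := by
    rintro ⟨a, b⟩ ⟨c, d⟩ h
    simpa using h
  have hs : ∀ k j, w (k, some j) = u (k, j) := by
    intro k j
    rw [← hu]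
    exact Finsupp.mapDomain_apply hinj u (k, j)
  have hn : ∀ k, w (k, none) = 0 := by
    intro k
    rw [← hu]
    refine Finsupp.mapDomain_of_notMem_range _ _ ?_
    rintro ⟨p, hp⟩
    simpa using congrArg Prod.snd hp
  refine ⟨⟨?_, fun i => ?_⟩, hn 0, ?_, fun j => ?_⟩
  · rw [Fintype.sum_option, hn, zero_add, Finset.sum_congr rfl fun j _ => hs 0 j, h1]
  · rw [Fintype.sum_option, hn, zero_add, Finset.sum_congr rfl fun j _ => hs i.succ j, h2]
  · exact Finset.sum_eq_zero fun i _ => hn _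
  · rw [hs]
    exact h3 j

lemma perm_some {e : Equiv.Perm (Option (Fin J))} (he : e none = none) (j : Fin J) :
    ∃ j', e (some j) = some j' := by
  rcases h : e (some j) with _ | j'
  · rw [← he] at h
    exact absurd (e.injective h) (by simp)
  · exact ⟨j', rfl⟩

lemma eD_sym {e : Equiv.Perm (Option (Fin J))} (he : e none = none) (r : ℕ)
    (f : MvPolynomial (Fin (m + 1) × Option (Fin J)) ℂ) :
    rename (fun p : Fin (m + 1) × Option (Fin J) => (p.1, e p.2)) (eD r f) =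
      eD r (rename (fun p : Fin (m + 1) × Option (Fin J) => (p.1, e p.2)) f) := by
  refine hom_der (rename fun p : Fin (m + 1) × Option (Fin J) => (p.1, e p.2)) _ _
    (fun p => ?_) f
  obtain ⟨k, c⟩ := p
  refine Fin.cases ?_ (fun k' => ?_) k
  · rw [eD_X_zero, map_zero, rename_X, eD_X_zero]
  · rcases c with _ | j
    · rw [eD_X_none, map_zero, rename_X, he, eD_X_none]
    · obtain ⟨j', hj'⟩ := perm_some he j
      rw [eD_X_succ, rename_X, hj', eD_X_succ, map_mul, map_pow, rename_X, rename_X, hj', he]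

lemma emb_sym {e : Equiv.Perm (Option (Fin J))} (he : e none = none)
    {g : MvPolynomial (Fin (m + 1) × Fin J) ℂ}
    (hg : ∀ e' : Equiv.Perm (Fin J),
      rename (fun p : Fin (m + 1) × Fin J => (p.1, e' p.2)) g = g) :
    rename (fun p : Fin (m + 1) × Option (Fin J) => (p.1, e p.2)) (emb g) = emb g := by
  have h : ∀ j, some (Equiv.removeNone e j) = e (some j) := fun j =>
    Equiv.removeNone_some e (perm_some he j)
  conv_rhs => rw [← hg (Equiv.removeNone e)]
  rw [emb, rename_rename, rename_rename]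
  congr 2
  funext p
  exact Prod.ext rfl (h p.2).symm

/-- Specialization `v = e_1`. -/
noncomputable def ev : MvPolynomial (Fin (m + 2) × Option (Fin J)) ℂ →ₐ[ℂ]
    MvPolynomial (Fin (m + 2) × Fin J) ℂ :=
  aeval fun p => p.2.elim (if p.1 = 1 then 1 else 0) fun j => X (p.1, j)

lemma ev_none (k : Fin (m + 2)) :
    ev (J := J) (X (k, none)) = if k = 1 then 1 else 0 := by
  rw [ev, aeval_X]
  rfl

lemma ev_some (k : Fin (m + 2)) (j : Fin J) : ev (X (k, some j)) = X (k, j) := by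
  rw [ev, aeval_X]
  rfl

lemma ev_emb (g : MvPolynomial (Fin (m + 2) × Fin J) ℂ) : ev (emb g) = g := by
  rw [ev, emb, aeval_rename]
  exact aeval_X_left_apply g

/-- `er 0 1 r` as a derivation. -/
noncomputable def erD (r : ℕ) : Derivation ℂ (MvPolynomial (Fin (m + 2) × Fin J) ℂ)
    (MvPolynomial (Fin (m + 2) × Fin J) ℂ) :=
  ∑ j, (X (0, j) ^ r : MvPolynomial (Fin (m + 2) × Fin J) ℂ) • pderiv (1, j)

lemma erD_apply (r : ℕ) (f : MvPolynomial (Fin (m + 2) × Fin J) ℂ) :
    erD r f = H726.er 0 1 r f := by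
  rw [erD, der_sum]
  rfl

lemma erD_X (r : ℕ) (k : Fin (m + 2)) (j : Fin J) :
    erD r (X (k, j)) = if k = 1 then X (0, j) ^ r else 0 := by
  rw [erD_apply, H726.er]
  by_cases h : k = 1
  · rw [if_pos h, Finset.sum_eq_single j]
    · rw [h, pderiv_X_self, mul_one]
    · intro b _ hb
      rw [pderiv_X_of_ne (fun h' => hb (congrArg Prod.snd h').symm), mul_zero]
    · intro h'
      exact absurd (Finset.mem_univ _) h'
  · rw [if_neg h]
    refine Finset.sum_eq_zero fun b _ => ?_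
    rw [pderiv_X_of_ne (fun h' => h (congrArg Prod.fst h')), mul_zero]

lemma ev_eD (r : ℕ) (f : MvPolynomial (Fin (m + 2) × Option (Fin J)) ℂ) :
    ev (eD r f) = H726.er 0 1 r (ev f) := by
  rw [← erD_apply]
  refine hom_der _ _ _ (fun p => ?_) f
  obtain ⟨k, c⟩ := p
  refine Fin.cases ?_ (fun k' => ?_) k
  · rw [eD_X_zero, map_zero]
    rcases c with _ | j
    · rw [ev_none, if_neg (Fin.zero_ne_one), map_zero]
    · rw [ev_some, erD_X, if_neg (Fin.zero_ne_one)]
  · rcases c with _ | j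
    · rw [eD_X_none, map_zero, ev_none]
      split_ifs
      · rw [Derivation.map_one_eq_zero]
      · rw [map_zero]
    · rw [eD_X_succ, ev_some, erD_X, map_mul, map_pow, ev_some, ev_none]
      split_ifs
      · rw [mul_one]
      · rw [mul_zero]

/-- **PULL.** -/
theorem pull_fin (m J Z : ℕ) (tau : Fin (m + 1) → ℕ) (M : ℕ) (h2 : 2 ≤ tau 0) :
    Module.finrank ℂ (BJ (m + 1) J Z tau M) ≤ ∑ r : Fin J, ∑ s : Fin J,
      Module.finrank ℂ (GJ (m + 1) J (Z + 2 + 2 * J) tau (M + 2 * J + r + s)) := by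
  have h := finrank_le_of_family (ι := Fin J × Fin J) (BJ (m + 1) J Z tau M)
    (fun p => GJ (m + 1) J (Z + 2 + 2 * J) tau (M + 2 * J + p.1 + p.2))
    (fun p => (eD p.1.1).toLinearMap ∘ₗ (eD p.2.1).toLinearMap ∘ₗ emb.toLinearMap ∘ₗ
      LinearMap.mulLeft ℂ (padP (m + 1) J)) ?_ ?_
  · rw [Fintype.sum_prod_type] at h
    exact h
  · rintro ⟨r, s⟩ f ⟨hf1, hf2, hf3⟩
    have e1 : ∀ u, coeff u (padP (m + 1) J * f) ≠ 0 →
        Rd tau (M + 2 * J) u ∧ ∀ j, 2 ≤ u (0, j) ∧ u (0, j) ≤ Z + 2 :=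
      sup_pad fun u hu => ⟨(hf1 u hu).1, fun j => ((hf1 u hu).2 j).2⟩
    have e2 := Pg_emb e1
    have e3 := Pg_eD (r := s.1) e2
    have e4 := Pg_eD (r := r.1) e3
    refine ⟨fun v hv => ?_, fun k i hki => ?_, fun e he => ?_⟩
    · obtain ⟨h3, h4, h5, h6⟩ := e4 v hv
      refine ⟨⟨?_, h3.2⟩, h4, h5, fun j => ⟨(h6 j).1, (h6 j).2.trans ?_⟩⟩
      · rw [h3.1]
        ring
      · have := r.2
        have := s.2
        omega
    · have hz : rD k.succ i.succ (padP (m + 1) J * f) = 0 := by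
        rw [Derivation.leibniz, padP_rD, rD_apply, hf2 k i hki, smul_zero, smul_zero, add_zero]
      change rowOp k.succ i.succ (eD r.1 (eD s.1 (emb (padP (m + 1) J * f)))) = 0
      rw [← rD_apply, eD_comm, eD_comm, ← emb_rD, hz, map_zero, map_zero, map_zero]
    · change rename _ (eD r.1 (eD s.1 (emb (padP (m + 1) J * f)))) =
        eD r.1 (eD s.1 (emb (padP (m + 1) J * f)))
      rw [eD_sym he, eD_sym he, emb_sym he]
      intro e'
      rw [map_mul, padP_sym, hf3 e' (Set.mem_univ _)]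
  · rintro f ⟨hf1, hf2, hf3⟩ h0
    have h1 : padP (m + 1) J * f = 0 := by
      refine H726.pull (r0 := 0) (r1 := 1) (Fin.zero_ne_one) ?_ ?_
      · intro v hv
        have hs : ∀ u, coeff u (padP (m + 1) J * f) ≠ 0 →
            Rd tau (M + 2 * J) u ∧ ∀ j, 2 ≤ u (0, j) ∧ u (0, j) ≤ Z + 2 :=
          sup_pad fun u hu => ⟨(hf1 u hu).1, fun j => ((hf1 u hu).2 j).2⟩
        have := (hs v hv).1.2 0
        have h01 : ((0 : Fin (m + 1)).succ : Fin (m + 2)) = 1 := rfl
        rw [h01] at this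
        rw [this]
        exact h2
      · intro r s hr hs
        rw [Fintype.card_fin] at hr hs
        have := h0 (⟨r, hr⟩, ⟨s, hs⟩)
        change eD r (eD s (emb (padP (m + 1) J * f))) = 0 at this
        rw [← ev_emb (padP (m + 1) J * f), ← ev_eD, ← ev_eD, this, map_zero]
    exact (mul_eq_zero.1 h1).resolve_left padP_ne

end Vale.Agent.P181.O2.H563
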