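import Vale.Agent.P181.O2.Cnt
import Vale.Agent.P181.O2.H563.Pull3

set_option autoImplicit false

/-!
# P181, O2, (W4): the pull-out of the letter `Sym^2`, labelled columns
-/

open MvPolynomial

namespace Vale.Agent.P181.O2.H563

open Vale.Agent.P181.T4 (rowOp rowOp_apply HW)

variable {n : ℕ} {σ : Type} [Fintype σ]

/-- `v . ∂_j`, `v` = column `none`. -/
noncomputable def dV (j : σ) : Derivation ℂ (MvPolynomial (Fin n × Option σ) ℂ)
    (MvPolynomial (Fin n × Option σ) ℂ) :=
  ∑ i : Fin n, (X (i, none) : MvPolynomial (Fin n × Option σ) ℂ) • pderiv (i, some j)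

lemma dV_apply (j : σ) (f : MvPolynomial (Fin n × Option σ) ℂ) :
    dV j f = ∑ i : Fin n, X (i, none) * pderiv (i, some j) f := by
  rw [dV, der_sum]
  rfl

lemma dV_X_none (j : σ) (k : Fin n) : dV j (X (k, none)) = 0 := by
  rw [dV_apply]
  refine Finset.sum_eq_zero fun i _ => ?_
  rw [pderiv_X_of_ne (fun h => by simpa using congrArg Prod.snd h), mul_zero]

lemma dV_X_some [DecidableEq σ] (j c : σ) (k : Fin n) :
    dV j (X (k, some c)) = if c = j then X (k, none) else 0 := by
  rw [dV_apply]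
  by_cases h : c = j
  · rw [if_pos h, Finset.sum_eq_single k]
    · rw [h, pderiv_X_self, mul_one]
    · intro b _ hb
      rw [pderiv_X_of_ne (fun h' => hb (congrArg Prod.fst h').symm), mul_zero]
    · intro h'
      exact absurd (Finset.mem_univ _) h'
  · rw [if_neg h]
    refine Finset.sum_eq_zero fun b _ => ?_
    rw [pderiv_X_of_ne (fun h' => h (by simpa using congrArg Prod.snd h')), mul_zero]

/-- The row operator as a derivation. -/
noncomputable def rE {κ : Type} [Fintype κ] (s i : Fin n) :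
    Derivation ℂ (MvPolynomial (Fin n × κ) ℂ) (MvPolynomial (Fin n × κ) ℂ) :=
  ∑ c, (X (s, c) : MvPolynomial (Fin n × κ) ℂ) • pderiv (i, c)

lemma rE_apply {κ : Type} [Fintype κ] (s i : Fin n) (f : MvPolynomial (Fin n × κ) ℂ) :
    rE s i f = rowOp s i f := by
  rw [rowOp_apply, rE, der_sum]
  rfl

lemma rE_X {κ : Type} [Fintype κ] (s i : Fin n) (k : Fin n) (c : κ) :
    rE s i (X (k, c)) = if k = i then X (s, c) else 0 := by
  classical
  rw [rE_apply, rowOp_apply]
  by_cases h : k = i
  · rw [if_pos h, Finset.sum_eq_single c]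
    · rw [h, pderiv_X_self, mul_one]
    · intro b _ hb
      rw [pderiv_X_of_ne (fun h' => hb (congrArg Prod.snd h').symm), mul_zero]
    · intro h'
      exact absurd (Finset.mem_univ _) h'
  · rw [if_neg h]
    refine Finset.sum_eq_zero fun b _ => ?_
    rw [pderiv_X_of_ne (fun h' => h (congrArg Prod.fst h')), mul_zero]

lemma dV_comm (j : σ) (s i : Fin n) (f : MvPolynomial (Fin n × Option σ) ℂ) :
    rE s i (dV j f) = dV j (rE s i f) := by
  classical
  have h : ⁅(rE s i : Derivation ℂ (MvPolynomial (Fin n × Option σ) ℂ)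
      (MvPolynomial (Fin n × Option σ) ℂ)),
      (dV j : Derivation ℂ (MvPolynomial (Fin n × Option σ) ℂ)
      (MvPolynomial (Fin n × Option σ) ℂ))⁆ = 0 := by
    apply derivation_ext
    rintro ⟨k, c⟩
    rw [Derivation.commutator_apply, Derivation.zero_apply, sub_eq_zero]
    rcases c with _ | c
    · rw [dV_X_none, map_zero, rE_X]
      split_ifs
      · rw [dV_X_none]
      · rw [map_zero]
    · rw [dV_X_some, rE_X]
      by_cases h1 : c = j <;> by_cases h2 : k = i
      · rw [if_pos h1, if_pos h2, rE_X, if_pos h2, dV_X_some, if_pos h1]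
      · rw [if_pos h1, if_neg h2, rE_X, if_neg h2, map_zero]
      · rw [if_neg h1, if_pos h2, dV_X_some, if_neg h1, map_zero]
      · rw [if_neg h1, if_neg h2, map_zero, map_zero]
  have h1 := congrArg (fun D => D f) h
  simp only [Derivation.commutator_apply, Derivation.zero_apply] at h1
  exact sub_eq_zero.1 h1

lemma supp_dV {j : σ} {f : MvPolynomial (Fin n × Option σ) ℂ}
    {w : Fin n × Option σ →₀ ℕ} (h : coeff w (dV j f) ≠ 0) :
    ∃ (v : Fin n × Option σ →₀ ℕ) (i : Fin n), coeff v f ≠ 0 ∧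
      w + Finsupp.single (i, some j) 1 = v + Finsupp.single (i, none) 1 := by
  rw [dV_apply, coeff_sum] at h
  obtain ⟨i, -, hi⟩ := Finset.exists_ne_zero_of_sum_ne_zero h
  have h1 : coeff w (X (i, none) ^ 0 * X (i, none) * pderiv (i, some j) f) ≠ 0 := by
    rw [pow_zero, one_mul]
    exact hi
  obtain ⟨v, hv, hw⟩ := supp_term h1
  refine ⟨v, i, hv, ?_⟩
  rw [hw, Finsupp.single_zero, zero_add]

/-- The embedding into one more column. -/
noncomputable def em : MvPolynomial (Fin n × σ) ℂ →ₐ[ℂ] MvPolynomial (Fin n × Option σ) ℂ :=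
  rename fun p => (p.1, some p.2)

lemma em_rE (s i : Fin n) (f : MvPolynomial (Fin n × σ) ℂ) : em (rE s i f) = rE s i (em f) := by
  refine hom_der _ _ _ (fun p => ?_) f
  obtain ⟨k, c⟩ := p
  rw [rE_X, em, rename_X, rE_X]
  split_ifs
  · rw [rename_X]
  · rw [map_zero]

lemma em_coeff {f : MvPolynomial (Fin n × σ) ℂ} {w : Fin n × Option σ →₀ ℕ}
    (hw : coeff w (em f) ≠ 0) : ∃ u, coeff u f ≠ 0 ∧ (∀ k j, w (k, some j) = u (k, j)) ∧
      ∀ k, w (k, none) = 0 := by
  obtain ⟨u, hu, hc⟩ := coeff_rename_ne_zero _ _ _ hw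
  have hinj : Function.Injective fun p : Fin n × σ => (p.1, some p.2) := by
    rintro ⟨a, b⟩ ⟨c, d⟩ h
    simpa using h
  refine ⟨u, hc, fun k j => ?_, fun k => ?_⟩
  · rw [← hu]
    exact Finsupp.mapDomain_apply hinj u (k, j)
  · rw [← hu]
    refine Finsupp.mapDomain_of_notMem_range _ _ ?_
    rintro ⟨p, hp⟩
    simpa using congrArg Prod.snd hp

lemma perm_someσ {e : Equiv.Perm (Option σ)} (he : e none = none) (j : σ) :
    ∃ j', e (some j) = some j' := by
  rcases h : e (some j) with _ | j'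
  · rw [← he] at h
    exact absurd (e.injective h) (by simp)
  · exact ⟨j', rfl⟩

lemma dV_sym {e : Equiv.Perm (Option σ)} (he : e none = none) {j j' : σ}
    (hj : e (some j) = some j') (f : MvPolynomial (Fin n × Option σ) ℂ) :
    rename (fun p : Fin n × Option σ => (p.1, e p.2)) (dV j f) =
      dV j' (rename (fun p : Fin n × Option σ => (p.1, e p.2)) f) := by
  classical
  refine hom_der (rename fun p : Fin n × Option σ => (p.1, e p.2)) _ _ (fun p => ?_) f
  obtain ⟨k, c⟩ := p
  rcases c with _ | c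
  · rw [dV_X_none, map_zero, rename_X, he, dV_X_none]
  · obtain ⟨c', hc'⟩ := perm_someσ he c
    rw [dV_X_some, rename_X, hc', dV_X_some]
    by_cases h : c = j
    · have : c' = j' := by
        rw [h, hj] at hc'
        simpa using hc'.symm
      rw [if_pos h, if_pos this, rename_X, he]
    · have : c' ≠ j' := by
        intro h'
        rw [h', ← hj] at hc'
        exact h (by simpa using e.injective hc')
      rw [if_neg h, if_neg this, map_zero]

lemma em_sym {e : Equiv.Perm (Option σ)} (he : e none = none) (f : MvPolynomial (Fin n × σ) ℂ) :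
    rename (fun p : Fin n × Option σ => (p.1, e p.2)) (em f) =
      em (rename (fun p : Fin n × σ => (p.1, Equiv.removeNone e p.2)) f) := by
  have h : ∀ j, some (Equiv.removeNone e j) = e (some j) := fun j =>
    Equiv.removeNone_some e (perm_someσ he j)
  rw [em, rename_rename, rename_rename]
  congr 2
  funext p
  exact Prod.ext rfl (h p.2).symm

/-- `(v.∂_j)(v.∂_k) f`. -/
noncomputable def DD (j k : σ) : MvPolynomial (Fin n × σ) ℂ →ₗ[ℂ]
    MvPolynomial (Fin n × Option σ) ℂ :=
  (dV j).toLinearMap ∘ₗ (dV k).toLinearMap ∘ₗ em.toLinearMap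

lemma DD_apply (j k : σ) (f : MvPolynomial (Fin n × σ) ℂ) : DD j k f = dV j (dV k (em f)) := rfl

/-- Specialization `v = e_1`. -/
noncomputable def sp : MvPolynomial (Fin (n + 1) × Option σ) ℂ →ₐ[ℂ]
    MvPolynomial (Fin (n + 1) × σ) ℂ :=
  aeval fun p => p.2.elim (if p.1 = 0 then 1 else 0) fun j => X (p.1, j)

lemma sp_none (k : Fin (n + 1)) : sp (σ := σ) (X (k, none)) = if k = 0 then 1 else 0 := by
  rw [sp, aeval_X]
  rfl

lemma sp_some (k : Fin (n + 1)) (j : σ) : sp (X (k, some j)) = X (k, j) := by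
  rw [sp, aeval_X]
  rfl

lemma sp_em (g : MvPolynomial (Fin (n + 1) × σ) ℂ) : sp (em g) = g := by
  rw [sp, em, aeval_rename]
  exact aeval_X_left_apply g

lemma sp_dV (j : σ) (f : MvPolynomial (Fin (n + 1) × Option σ) ℂ) :
    sp (dV j f) = pderiv (0, j) (sp f) := by
  classical
  refine hom_der _ _ _ (fun p => ?_) f
  obtain ⟨k, c⟩ := p
  rcases c with _ | c
  · rw [dV_X_none, map_zero, sp_none]
    split_ifs
    · rw [Derivation.map_one_eq_zero]
    · rw [map_zero]
  · rw [dV_X_some, sp_some, pderiv_X]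
    by_cases h : c = j
    · rw [if_pos h, sp_none, h]
      by_cases hk : k = 0
      · rw [if_pos hk, hk, Pi.single_eq_same]
      · rw [if_neg hk, Pi.single_eq_of_ne (fun h' => hk (congrArg Prod.fst h'))]
    · rw [if_neg h, map_zero, Pi.single_eq_of_ne (fun h' => h (congrArg Prod.snd h'))]

lemma sp_DD (j k : σ) (f : MvPolynomial (Fin (n + 1) × σ) ℂ) :
    sp (DD j k f) = pderiv (0, j) (pderiv (0, k) f) := by
  rw [DD_apply, sp_dV, sp_dV, sp_em]

lemma coeff_pd {τ : Type*} {c : τ} {g : MvPolynomial τ ℂ} {v : τ →₀ ℕ}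
    (hv : coeff v g ≠ 0) (hc : v c ≠ 0) : coeff (v - Finsupp.single c 1) (pderiv c g) ≠ 0 := by
  classical
  have hle : Finsupp.single c 1 ≤ v := by
    rw [Finsupp.single_le_iff]
    omega
  rw [MvPolynomial.coeff_pderiv, tsub_add_cancel_of_le hle]
  refine mul_ne_zero hv ?_
  norm_cast

/-- Two derivatives in row `0`. -/
lemma two_zero {f : MvPolynomial (Fin (n + 1) × σ) ℂ}
    (h2 : ∀ v, coeff v f ≠ 0 → 2 ≤ ∑ j, v (0, j))
    (h : ∀ j k : σ, (j = k → ∃ v, coeff v f ≠ 0 ∧ 2 ≤ v (0, j)) → DD j k f = 0) : f = 0 := by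
  classical
  by_contra hf
  obtain ⟨v, hv⟩ := MvPolynomial.ne_zero_iff.1 hf
  have hs := h2 v hv
  obtain ⟨k, -, hk⟩ : ∃ k ∈ Finset.univ, v (0, k) ≠ 0 := by
    by_contra hc
    push Not at hc
    rw [Finset.sum_eq_zero hc] at hs
    omega
  have h3 := coeff_pd hv hk
  obtain ⟨j, hj⟩ : ∃ j, (v - Finsupp.single ((0 : Fin (n + 1)), k) 1 :
      Fin (n + 1) × σ →₀ ℕ) (0, j) ≠ 0 := by
    by_contra hc
    push Not at hc
    have h7 : ∑ l, v (0, l) = 1 := by
      rw [Finset.sum_eq_single k]
      · have := hc k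
        rw [Finsupp.tsub_apply, Finsupp.single_eq_same] at this
        omega
      · intro l _ hl
        have := hc l
        rw [Finsupp.tsub_apply, Finsupp.single_apply,
          if_neg (fun h => hl (congrArg Prod.snd h).symm)] at this
        omega
      · intro h
        exact absurd (Finset.mem_univ _) h
    omega
  have h4 := coeff_pd h3 hj
  have h5 : DD j k f = 0 := by
    refine h j k fun hjk => ⟨v, hv, ?_⟩
    rw [hjk, Finsupp.tsub_apply, Finsupp.single_eq_same] at hj
    rw [hjk]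
    omega
  rw [← sp_DD, h5, map_zero, coeff_zero] at h4
  exact h4 rfl

lemma DD_sym {e : Equiv.Perm (Option σ)} (he : e none = none) {j j' k k' : σ}
    (hj : e (some j) = some j') (hk : e (some k) = some k') (f : MvPolynomial (Fin n × σ) ℂ) :
    rename (fun p : Fin n × Option σ => (p.1, e p.2)) (DD j k f) =
      DD j' k' (rename (fun p : Fin n × σ => (p.1, Equiv.removeNone e p.2)) f) := by
  rw [DD_apply, DD_apply, dV_sym he hj, dV_sym he hk, em_sym he]

lemma DD_move (e : Equiv.Perm σ) (j k : σ) {f : MvPolynomial (Fin n × σ) ℂ}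
    (hf : rename (fun p : Fin n × σ => (p.1, e p.2)) f = f) (h : DD j k f = 0) :
    DD (e j) (e k) f = 0 := by
  have h1 := DD_sym (n := n) (e := Equiv.optionCongr e) (j := j) (k := k) (j' := e j) (k' := e k)
    rfl rfl rfl f
  rw [h, map_zero, Equiv.removeNone_optionCongr, hf] at h1
  exact h1.symm

end Vale.Agent.P181.O2.H563
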