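import Vale.Agent.P181.O2.H563.W4c
import Vale.Agent.P181.O2.H43.T

set_option autoImplicit false

/-!
# P181, O2, (W4), closed
-/

namespace Vale.Agent.P181.O2.H563

/-- **(W4)**, no hypothesis. -/
theorem pullCc : PullC := pullC H43.transL

end Vale.Agent.P181.O2.H563
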