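import Vale.Agent.P181.O2.H563.W4

set_option autoImplicit false

/-!
# P181, O2, (W4): the pull-out of the letter `Sym^2`, main part
-/

open MvPolynomial

namespace Vale.Agent.P181.O2.H563

open Vale.Agent.P181.T4 (rowOp rowOp_apply HW)

variable {n : ℕ} {σ : Type} [Fintype σ] [DecidableEq σ]

lemma mem_PL {l : σ → ℕ × ℕ} {mu : Fin n → ℕ} {f : MvPolynomial (Fin n × σ) ℂ} :
    f ∈ PL n σ l mu ↔ f ∈ HW n σ mu ∧ (∀ v, coeff v f ≠ 0 → ∀ j, ∑ i, v (i, j) = (l j).2) ∧
      ∀ e : Equiv.Perm σ, (∀ j, l (e j) = l j) →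
        rename (fun p : Fin n × σ => (p.1, e p.2)) f = f := Iff.rfl

instance finPL (l : σ → ℕ × ℕ) (mu : Fin n → ℕ) : Module.Finite ℂ (PL n σ l mu) := by
  classical
  refine fin_of_sup {v | ∀ i, ∑ j, v (i, j) = mu i} ?_ fun f hf v hv => hf.1.1 v hv
  refine Set.Finite.subset (Set.finite_Iic
    (Finsupp.equivFunOnFinite.symm fun p : Fin n × σ => mu p.1)) ?_
  rintro v hv ⟨i, j⟩
  rw [Finsupp.equivFunOnFinite_symm_apply_apply]
  have := Finset.single_le_sum (f := fun j => v (i, j)) (fun _ _ => Nat.zero_le _)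
    (Finset.mem_univ j)
  have h : ∑ j, v (i, j) = mu i := hv i
  simp only at this ⊢
  omega

/-- Labels with one more column. -/
def lb (L : ℕ) (l : σ → ℕ × ℕ) : Option σ → ℕ × ℕ := fun o => o.elim (L, 2) l

/-- The labels after the pull-out. -/
def l1 (x : ℕ) (l : σ → ℕ × ℕ) (j : σ) : σ → ℕ × ℕ := Function.update l j (x, (l j).2 - 2)

/-- The labels after the pull-out. -/
def l2 (x x' : ℕ) (l : σ → ℕ × ℕ) (j k : σ) : σ → ℕ × ℕ :=
  Function.update (Function.update l j (x, (l j).2 - 1)) k (x', (l k).2 - 1)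

/-- One step, row and column degrees. -/
lemma step_deg {j : σ} {i0 : Fin n} {v w : Fin n × Option σ →₀ ℕ}
    (h : w + Finsupp.single (i0, some j) 1 = v + Finsupp.single (i0, none) 1) :
    (∀ i, ∑ c, w (i, c) = ∑ c, v (i, c)) ∧ ∀ c,
      ∑ i, w (i, c) + (if c = some j then 1 else 0) =
        ∑ i, v (i, c) + if c = none then 1 else 0 := by
  classical
  have hp : ∀ (k : Fin n) (c : Option σ),
      w (k, c) + (if k = i0 ∧ c = some j then 1 else 0) =
      v (k, c) + (if k = i0 ∧ c = none then 1 else 0) := by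
    intro k c
    have := DFunLike.congr_fun h (k, c)
    simpa only [Finsupp.add_apply, Finsupp.single_apply, Prod.mk.injEq, eq_comm (a := i0),
      eq_comm (a := some j), eq_comm (a := (none : Option σ))] using this
  refine ⟨fun k => ?_, fun c => ?_⟩
  · have h3 := Finset.sum_congr (s₁ := (Finset.univ : Finset (Option σ))) rfl
      fun c _ => hp k c
    rw [Finset.sum_add_distrib, Finset.sum_add_distrib] at h3
    by_cases hk : k = i0
    · simp only [hk, true_and, Finset.sum_ite_eq', Finset.mem_univ, if_true] at h3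
      rw [hk]
      omega
    · simp only [hk, false_and, if_false, Finset.sum_const_zero] at h3
      omega
  · have h3 := Finset.sum_congr (s₁ := (Finset.univ : Finset (Fin n))) rfl
      fun k _ => hp k c
    rw [Finset.sum_add_distrib, Finset.sum_add_distrib] at h3
    by_cases hc : c = some j
    · subst hc
      simpa using h3
    · by_cases hc2 : c = none
      · subst hc2
        simpa using h3
      · simp only [hc, hc2, and_false, if_false, Finset.sum_const_zero] at h3 ⊢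
        exact h3

lemma em_deg {f : MvPolynomial (Fin n × σ) ℂ} {mu : Fin n → ℕ} {g : σ → ℕ}
    (hf : ∀ v, coeff v f ≠ 0 → (∀ i, ∑ c, v (i, c) = mu i) ∧ ∀ c, ∑ i, v (i, c) = g c)
    (w : Fin n × Option σ →₀ ℕ) (hw : coeff w (em f) ≠ 0) :
    (∀ i, ∑ c, w (i, c) = mu i) ∧ ∀ c, ∑ i, w (i, c) = c.elim 0 g := by
  obtain ⟨u, hu, h1, h2⟩ := em_coeff hw
  obtain ⟨h3, h4⟩ := hf u hu
  refine ⟨fun i => ?_, fun c => ?_⟩
  · rw [Fintype.sum_option, h2, zero_add, Finset.sum_congr rfl fun c _ => h1 i c, h3]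
  · rcases c with _ | c
    · exact Finset.sum_eq_zero fun i _ => h2 i
    · rw [Finset.sum_congr rfl fun i _ => h1 i c, h4]
      rfl

lemma DD_deg {j k : σ} {f : MvPolynomial (Fin n × σ) ℂ} {mu : Fin n → ℕ} {g : σ → ℕ}
    (hf : ∀ v, coeff v f ≠ 0 → (∀ i, ∑ c, v (i, c) = mu i) ∧ ∀ c, ∑ i, v (i, c) = g c)
    (w : Fin n × Option σ →₀ ℕ) (hw : coeff w (DD j k f) ≠ 0) :
    (∀ i, ∑ c, w (i, c) = mu i) ∧ ∑ i, w (i, none) = 2 ∧
      ∀ c, ∑ i, w (i, some c) + (if c = j then 1 else 0) + (if c = k then 1 else 0) = g c := by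
  classical
  rw [DD_apply] at hw
  obtain ⟨v, i0, hv, h⟩ := supp_dV hw
  obtain ⟨u, i1, hu, h'⟩ := supp_dV hv
  obtain ⟨a1, a2⟩ := step_deg h
  obtain ⟨b1, b2⟩ := step_deg h'
  obtain ⟨c1, c2⟩ := em_deg hf u hu
  refine ⟨fun i => by rw [a1, b1, c1], ?_, fun c => ?_⟩
  · have h1 := a2 none
    have h2 := b2 none
    have h3 := c2 none
    simp only [reduceCtorEq, if_false, if_true, Option.elim_none] at h1 h2 h3
    omega
  · have h1 := a2 (some c)
    have h2 := b2 (some c)
    have h3 := c2 (some c)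
    simp only [reduceCtorEq, if_false, Option.some.injEq, Option.elim_some] at h1 h2 h3
    omega

lemma DD_HW {j k : σ} {f : MvPolynomial (Fin n × σ) ℂ} (s i : Fin n)
    (hf : rowOp s i f = 0) : rowOp s i (DD j k f) = 0 := by
  rw [DD_apply, ← rE_apply, dV_comm, dV_comm, ← em_rE, rE_apply, hf, map_zero, map_zero, map_zero]

/-- The image of the pull-out, abstract labels. -/
lemma DD_mem {l : σ → ℕ × ℕ} {mu : Fin n → ℕ} {f : MvPolynomial (Fin n × σ) ℂ}
    (hf : f ∈ PL n σ l mu) {j k : σ} {L : ℕ} {l' : σ → ℕ × ℕ}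
    (hL : ∀ c, (l' c).1 ≠ L)
    (hd : ∀ c, (l' c).2 + (if c = j then 1 else 0) + (if c = k then 1 else 0) = (l c).2)
    (hfix : ∀ e : Equiv.Perm σ, (∀ c, l' (e c) = l' c) → e j = j ∧ e k = k)
    (hl : ∀ c, c ≠ j → c ≠ k → l' c = l c) :
    DD j k f ∈ PL n (Option σ) (lb L l') mu := by
  obtain ⟨⟨hf1, hf2⟩, hf3, hf4⟩ := hf
  have hf5 : ∀ v, coeff v f ≠ 0 → (∀ i, ∑ c, v (i, c) = mu i) ∧ ∀ c, ∑ i, v (i, c) = (l c).2 :=
    fun v hv => ⟨hf1 v hv, hf3 v hv⟩
  refine mem_PL.2 ⟨⟨fun v hv => (DD_deg hf5 v hv).1, fun s i hsi => DD_HW s i (hf2 s i hsi)⟩,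
    fun v hv c => ?_, fun e he => ?_⟩
  · obtain ⟨-, h1, h2⟩ := DD_deg hf5 v hv
    rcases c with _ | c
    · exact h1
    · have h3 := h2 c
      have h4 := hd c
      change ∑ i, v (i, some c) = (l' c).2
      omega
  · have hn : e none = none := by
      rcases h : e none with _ | c
      · rfl
      · have := he none
        rw [h] at this
        exact absurd (congrArg Prod.fst this) (hL c)
    have hs : ∀ c, some (Equiv.removeNone e c) = e (some c) := fun c =>
      Equiv.removeNone_some e (perm_someσ hn c)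
    have h5 : ∀ c, l' (Equiv.removeNone e c) = l' c := by
      intro c
      have := he (some c)
      rw [← hs c] at this
      exact this
    obtain ⟨h6, h7⟩ := hfix _ h5
    rw [DD_sym hn (j := j) (k := k) (j' := j) (k' := k)
      (by rw [← hs j, h6]) (by rw [← hs k, h7]), hf4]
    intro c
    by_cases hcj : c = j
    · rw [hcj, h6]
    · by_cases hck : c = k
      · rw [hck, h7]
      · rw [← hl _ (fun h => hcj ((Equiv.removeNone e).injective (h.trans h6.symm)))
          (fun h => hck ((Equiv.removeNone e).injective (h.trans h7.symm))), h5, hl c hcj hck]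

end Vale.Agent.P181.O2.H563
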