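import Vale.Agent.P181.O2.H563.W4b

set_option autoImplicit false

/-!
# P181, O2, (W4): `PullC`
-/

open MvPolynomial

namespace Vale.Agent.P181.O2.H563

open Vale.Agent.P181.T4 (rowOp rowOp_apply HW)

section Labels

variable {α σ : Type} [Fintype σ] [DecidableEq σ] [DecidableEq α]

lemma univ_cons (j : σ) :
    (Finset.univ : Finset σ).val = j ::ₘ ((Finset.univ : Finset σ).erase j).val := by
  rw [Finset.erase_val, Multiset.cons_erase]
  exact Finset.mem_univ j

lemma ne_of_val {j c : σ} (hc : c ∈ ((Finset.univ : Finset σ).erase j).val) : c ≠ j := by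
  rw [Finset.mem_val] at hc
  exact Finset.ne_of_mem_erase hc

lemma map_erase (l : σ → α) (j : σ) : (Finset.univ.val.map l).erase (l j) =
    ((Finset.univ : Finset σ).erase j).val.map l := by
  conv_lhs => rw [univ_cons j]
  rw [Multiset.map_cons, Multiset.erase_cons_head]

lemma map_update (l : σ → α) (j : σ) (y : α) :
    Finset.univ.val.map (Function.update l j y) = y ::ₘ (Finset.univ.val.map l).erase (l j) := by
  rw [map_erase, univ_cons j, Multiset.map_cons, Function.update_self]
  congr 1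
  refine Multiset.map_congr rfl fun c hc => ?_
  rw [Function.update_of_ne (ne_of_val hc)]

lemma filt_erase {P : α → Prop} [DecidablePred P] {U : Multiset α} {p : α} (hp : p ∈ U)
    (hq : P p) : (U.erase p).filter P = (U.filter P).erase p := by
  conv_rhs => rw [← Multiset.cons_erase hp]
  rw [Multiset.filter_cons_of_pos _ hq, Multiset.erase_cons_head]

end Labels

variable {n : ℕ} {σ : Type} [Fintype σ] [DecidableEq σ]

lemma cc_filter (hT : TransL) (mu : Fin n → ℕ) (V : Multiset (ℕ × ℕ)) :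
    cc n mu (V.filter fun p => 0 < p.2) = cc n mu V := by
  have h := hT n (Fin V.toList.length) (fun j => V.toList.get j) mu
  have h1 : (Finset.univ.val.map fun j : Fin V.toList.length => V.toList.get j) = V := by
    rw [Fin.univ_val_map, List.ofFn_get, Multiset.coe_toList]
  rw [h1] at h
  exact h.symm

lemma tgt (hT : TransL) (mu : Fin n → ℕ) {l' : σ → ℕ × ℕ} {U1 : Multiset (ℕ × ℕ)}
    (hle : Finset.univ.val.map l' ≤ U1)
    (hfl : (Finset.univ.val.map l').filter (fun p => 0 < p.2) = U1.filter fun p => 0 < p.2) :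
    Module.finrank ℂ (PL n (Option σ) (lb ((U1.map Prod.fst).sum + 1) l') mu) = cc2 n mu U1 ∧
      ∀ c, (l' c).1 ≠ (U1.map Prod.fst).sum + 1 := by
  constructor
  · rw [cc2, ← cc_filter hT mu (_ ::ₘ U1), hT]
    congr 1
    have h1 : (Finset.univ : Finset (Option σ)).val.map (lb ((U1.map Prod.fst).sum + 1) l') =
        ((U1.map Prod.fst).sum + 1, 2) ::ₘ Finset.univ.val.map l' := by
      have h2 : (Finset.univ : Finset (Option σ)).val =
          none ::ₘ (Finset.univ : Finset σ).val.map some := rfl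
      rw [h2, Multiset.map_cons, Multiset.map_map]
      rfl
    rw [h1, Multiset.filter_cons, Multiset.filter_cons, hfl]
  · intro c hc
    have h1 : l' c ∈ U1 := Multiset.mem_of_le hle
      (Multiset.mem_map_of_mem _ (Finset.mem_univ c))
    have h2 := Multiset.single_le_sum (s := U1.map Prod.fst) (fun _ _ => Nat.zero_le _) _
      (Multiset.mem_map_of_mem Prod.fst h1)
    omega

lemma swap_lab {l : σ → ℕ × ℕ} {a b : σ} (h : l a = l b) (c : σ) :
    l (Equiv.swap a b c) = l c := by
  by_cases h1 : c = a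
  · rw [h1, Equiv.swap_apply_left, h]
  · by_cases h2 : c = b
    · rw [h2, Equiv.swap_apply_right, h]
    · rw [Equiv.swap_apply_of_ne_of_ne h1 h2]

theorem pull_core (hT : TransL) (m : ℕ) (mu : Fin (m + 1) → ℕ) (h2 : 2 ≤ mu 0)
    (l : σ → ℕ × ℕ) (x x' : ℕ) (hx : x ≠ x') (U : Multiset (ℕ × ℕ))
    (hl : ∀ c, (l c).1 ≠ x ∧ (l c).1 ≠ x')
    (hU : Finset.univ.val.map l = U.filter fun p => 0 < p.2) :
    Module.finrank ℂ (PL (m + 1) σ l mu) ≤
      ∑ p ∈ U.toFinset.filter (fun p => 2 ≤ p.2), cc2 (m + 1) mu ((x, p.2 - 2) ::ₘ U.erase p) +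
      ∑ p ∈ U.toFinset.filter (fun p => 1 ≤ p.2),
        ∑ p' ∈ (U.erase p).toFinset.filter (fun p => 1 ≤ p.2),
          cc2 (m + 1) mu ((x, p.2 - 1) ::ₘ (x', p'.2 - 1) ::ₘ (U.erase p).erase p') := by
  classical
  -- representatives
  have hpos : ∀ c, 0 < (l c).2 := by
    intro c
    have : l c ∈ Finset.univ.val.map l := Multiset.mem_map_of_mem _ (Finset.mem_univ c)
    rw [hU] at this
    exact (Multiset.mem_filter.1 this).2
  have hmem : ∀ c, l c ∈ U := by
    intro c
    have : l c ∈ Finset.univ.val.map l := Multiset.mem_map_of_mem _ (Finset.mem_univ c)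
    rw [hU] at this
    exact (Multiset.mem_filter.1 this).1
  have hrep : ∀ p ∈ U, 0 < p.2 → ∃ j, l j = p := by
    intro p hp hp2
    have : p ∈ Finset.univ.val.map l := by
      rw [hU]
      exact Multiset.mem_filter.2 ⟨hp, hp2⟩
    obtain ⟨j, -, hj⟩ := Multiset.mem_map.1 this
    exact ⟨j, hj⟩
  have her : ∀ j, (U.erase (l j)).filter (fun p => 0 < p.2) =
      ((Finset.univ : Finset σ).erase j).val.map l := by
    intro j
    rw [filt_erase (hmem j) (hpos j), ← hU, map_erase]
  have hrep2 : ∀ p ∈ U, 0 < p.2 → ∀ p' ∈ U.erase p, 0 < p'.2 →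
      ∃ j k, j ≠ k ∧ l j = p ∧ l k = p' := by
    intro p hp hp2 p' hp' hp2'
    obtain ⟨j, hj⟩ := hrep p hp hp2
    have : p' ∈ ((Finset.univ : Finset σ).erase j).val.map l := by
      rw [← her, hj]
      exact Multiset.mem_filter.2 ⟨hp', hp2'⟩
    obtain ⟨k, hk, hk2⟩ := Multiset.mem_map.1 this
    exact ⟨j, k, fun h => ne_of_val hk h.symm, hj, hk2⟩
  have hmem2 : ∀ j k, j ≠ k → l k ∈ U.erase (l j) := by
    intro j k hjk
    have : l k ∈ ((Finset.univ : Finset σ).erase j).val.map l :=
      Multiset.mem_map_of_mem _ (Finset.mem_erase.2 ⟨fun h => hjk h.symm, Finset.mem_univ k⟩)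
    rw [← her] at this
    exact (Multiset.mem_filter.1 this).1
  -- the first family
  let A := {p // p ∈ U.toFinset.filter fun p : ℕ × ℕ => 2 ≤ p.2}
  let B := {p // p ∈ U.toFinset.filter fun p : ℕ × ℕ => 1 ≤ p.2}
  let C : B → Type := fun p => {p' // p' ∈ (U.erase p.1).toFinset.filter fun p : ℕ × ℕ => 1 ≤ p.2}
  have hA : ∀ p : A, ∃ j, l j = p.1 := by
    rintro ⟨p, hp⟩
    obtain ⟨h3, h4⟩ := Finset.mem_filter.1 hp
    exact hrep p (Multiset.mem_toFinset.1 h3) (by omega)
  choose ja hja using hA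
  have hB : ∀ q : (Σ p : B, C p), ∃ jk : σ × σ, jk.1 ≠ jk.2 ∧ l jk.1 = q.1.1 ∧ l jk.2 = q.2.1 := by
    rintro ⟨⟨p, hp⟩, ⟨p', hp'⟩⟩
    obtain ⟨h3, h4⟩ := Finset.mem_filter.1 hp
    obtain ⟨h5, h6⟩ := Finset.mem_filter.1 hp'
    obtain ⟨j, k, h⟩ := hrep2 p (Multiset.mem_toFinset.1 h3) h4 p' (Multiset.mem_toFinset.1 h5) h6
    exact ⟨(j, k), h⟩
  choose jb hjb using hB
  let U1 : A → Multiset (ℕ × ℕ) := fun p => (x, p.1.2 - 2) ::ₘ U.erase p.1
  let U2 : (Σ p : B, C p) → Multiset (ℕ × ℕ) := fun q =>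
    (x, q.1.1.2 - 1) ::ₘ (x', q.2.1.2 - 1) ::ₘ (U.erase q.1.1).erase q.2.1
  have hT1 : ∀ p : A, Module.finrank ℂ (PL (m + 1) (Option σ)
      (lb (((U1 p).map Prod.fst).sum + 1) (l1 x l (ja p))) mu) = cc2 (m + 1) mu (U1 p) ∧
      ∀ c, (l1 x l (ja p) c).1 ≠ ((U1 p).map Prod.fst).sum + 1 := by
    intro p
    have h3 : Finset.univ.val.map (l1 x l (ja p)) =
        (x, p.1.2 - 2) ::ₘ (U.erase p.1).filter fun p => 0 < p.2 := by
      rw [l1, map_update, map_erase, ← her, hja]
    refine tgt hT mu ?_ ?_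
    · rw [h3]
      exact (Multiset.cons_le_cons_iff _).2 (Multiset.filter_le _ _)
    · rw [h3, Multiset.filter_cons, Multiset.filter_filter, Multiset.filter_cons]
      simp only [and_self]
  have hT2 : ∀ q : (Σ p : B, C p), Module.finrank ℂ (PL (m + 1) (Option σ)
      (lb (((U2 q).map Prod.fst).sum + 1) (l2 x x' l (jb q).1 (jb q).2)) mu) =
        cc2 (m + 1) mu (U2 q) ∧
      ∀ c, (l2 x x' l (jb q).1 (jb q).2 c).1 ≠ ((U2 q).map Prod.fst).sum + 1 := by
    intro q
    obtain ⟨h3, h4, h5⟩ := hjb q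
    have h6 : Finset.univ.val.map (l2 x x' l (jb q).1 (jb q).2) =
        (x, q.1.1.2 - 1) ::ₘ (x', q.2.1.2 - 1) ::ₘ
          ((U.erase q.1.1).erase q.2.1).filter fun p => 0 < p.2 := by
      rw [l2, map_update, Function.update_of_ne (fun h => h3 h.symm), map_update, map_erase,
        ← her, h4, h5, Multiset.cons_swap]
      congr 1
      rw [Multiset.erase_cons_tail]
      · congr 1
        refine (filt_erase ?_ ?_).symm
        · have h7 := hmem2 _ _ h3
          rw [h4, h5] at h7
          exact h7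
        · have h7 := hpos (jb q).2
          rw [h5] at h7
          exact h7
      · intro h
        refine (hl (jb q).2).1 ?_
        rw [h5, ← h]
    refine tgt hT mu ?_ ?_
    · rw [h6]
      exact (Multiset.cons_le_cons_iff _).2 ((Multiset.cons_le_cons_iff _).2
        (Multiset.filter_le _ _))
    · rw [h6, Multiset.filter_cons, Multiset.filter_cons, Multiset.filter_filter,
        Multiset.filter_cons, Multiset.filter_cons]
      simp only [and_self]
  have hm1 : ∀ (p : A), ∀ f ∈ PL (m + 1) σ l mu, DD (ja p) (ja p) f ∈ PL (m + 1) (Option σ)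
      (lb (((U1 p).map Prod.fst).sum + 1) (l1 x l (ja p))) mu := by
    intro p f hf
    have hp2 : 2 ≤ (l (ja p)).2 := by
      rw [hja]
      exact (Finset.mem_filter.1 p.2).2
    refine DD_mem hf (hT1 p).2 (fun c => ?_) (fun e he => ?_) (fun c hc _ => ?_)
    · by_cases hc : c = ja p
      · rw [if_pos hc, hc, l1, Function.update_self]
        simp only
        omega
      · rw [if_neg hc, l1, Function.update_of_ne hc]
        omega
    · have h3 : e (ja p) = ja p := by
        by_contra h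
        have h4 := he (ja p)
        rw [l1, Function.update_of_ne h, Function.update_self] at h4
        exact (hl _).1 (congrArg Prod.fst h4)
      exact ⟨h3, h3⟩
    · rw [l1, Function.update_of_ne hc]
  have hm2 : ∀ (q : Σ p : B, C p), ∀ f ∈ PL (m + 1) σ l mu, DD (jb q).1 (jb q).2 f ∈
      PL (m + 1) (Option σ)
      (lb (((U2 q).map Prod.fst).sum + 1) (l2 x x' l (jb q).1 (jb q).2)) mu := by
    intro q f hf
    obtain ⟨h3, h4, h5⟩ := hjb q
    have hl1 : l2 x x' l (jb q).1 (jb q).2 (jb q).1 = (x, (l (jb q).1).2 - 1) := by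
      rw [l2, Function.update_of_ne h3, Function.update_self]
    have hl2 : l2 x x' l (jb q).1 (jb q).2 (jb q).2 = (x', (l (jb q).2).2 - 1) := by
      rw [l2, Function.update_self]
    have hl3 : ∀ c, c ≠ (jb q).1 → c ≠ (jb q).2 → l2 x x' l (jb q).1 (jb q).2 c = l c := by
      intro c hc1 hc2
      rw [l2, Function.update_of_ne hc2, Function.update_of_ne hc1]
    refine DD_mem hf (hT2 q).2 (fun c => ?_) (fun e he => ?_) (fun c hc hc' => hl3 c hc hc')
    · by_cases hc : c = (jb q).1
      · have := hpos (jb q).1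
        rw [if_pos hc, if_neg (fun h => h3 (hc.symm.trans h)), hc, hl1]
        simp only
        omega
      · by_cases hc2 : c = (jb q).2
        · have := hpos (jb q).2
          rw [if_neg hc, if_pos hc2, hc2, hl2]
          simp only
          omega
        · rw [if_neg hc, if_neg hc2, hl3 c hc hc2]
          omega
    · constructor
      · by_contra h
        have h6 := he (jb q).1
        rw [hl1] at h6
        by_cases h7 : e (jb q).1 = (jb q).2
        · rw [h7, hl2] at h6
          exact hx (congrArg Prod.fst h6).symm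
        · rw [hl3 _ h h7] at h6
          exact (hl _).1 (congrArg Prod.fst h6)
      · by_contra h
        have h6 := he (jb q).2
        rw [hl2] at h6
        by_cases h7 : e (jb q).2 = (jb q).1
        · rw [h7, hl1] at h6
          exact hx (congrArg Prod.fst h6)
        · rw [hl3 _ h7 h] at h6
          exact (hl _).2 (congrArg Prod.fst h6)
  let T : A ⊕ (Σ p : B, C p) → Submodule ℂ (MvPolynomial (Fin (m + 1) × Option σ) ℂ) :=
    Sum.elim (fun p => PL (m + 1) (Option σ)
        (lb (((U1 p).map Prod.fst).sum + 1) (l1 x l (ja p))) mu)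
      (fun q => PL (m + 1) (Option σ)
        (lb (((U2 q).map Prod.fst).sum + 1) (l2 x x' l (jb q).1 (jb q).2)) mu)
  have hTf : ∀ i, Module.Finite ℂ (T i) := by
    rintro (p | q)
    · exact finPL _ _
    · exact finPL _ _
  have hfin := finrank_le_of_family (PL (m + 1) σ l mu) T
    (Sum.elim (fun p => DD (ja p) (ja p)) (fun q => DD (jb q).1 (jb q).2)) ?_ ?_
  · rw [Fintype.sum_sum_type] at hfin
    refine hfin.trans (le_of_eq ?_)
    refine congrArg₂ (· + ·) ?_ ?_
    · refine (Finset.sum_congr rfl fun p _ => (hT1 p).1).trans ?_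
      exact Finset.sum_coe_sort (U.toFinset.filter fun p : ℕ × ℕ => 2 ≤ p.2)
        fun p => cc2 (m + 1) mu ((x, p.2 - 2) ::ₘ U.erase p)
    · refine (Finset.sum_congr rfl fun q _ => (hT2 q).1).trans ?_
      rw [Fintype.sum_sigma, ← Finset.sum_coe_sort (U.toFinset.filter fun p : ℕ × ℕ => 1 ≤ p.2)]
      refine Finset.sum_congr rfl fun p _ => ?_
      exact Finset.sum_coe_sort ((U.erase p.1).toFinset.filter fun p : ℕ × ℕ => 1 ≤ p.2)
        fun p' => cc2 (m + 1) mu ((x, p.1.2 - 1) ::ₘ (x', p'.2 - 1) ::ₘ (U.erase p.1).erase p')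
  · rintro (p | q) f hf
    · exact hm1 p f hf
    · exact hm2 q f hf
  · intro f hf h0
    obtain ⟨⟨hf1, hf2⟩, hf3, hf4⟩ := hf
    refine two_zero (fun v hv => ?_) fun j k hjk => ?_
    · rw [hf1 v hv 0]
      exact h2
    · by_cases h : j = k
      · subst h
        obtain ⟨v, hv, hv2⟩ := hjk rfl
        have h3 : 2 ≤ (l j).2 := by
          rw [← hf3 v hv j]
          exact hv2.trans (Finset.single_le_sum (f := fun i => v (i, j))
            (fun _ _ => Nat.zero_le _) (Finset.mem_univ 0))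
        have hp : l j ∈ U.toFinset.filter fun p : ℕ × ℕ => 2 ≤ p.2 :=
          Finset.mem_filter.2 ⟨Multiset.mem_toFinset.2 (hmem j), h3⟩
        have h4 := h0 (Sum.inl ⟨l j, hp⟩)
        simp only [Sum.elim_inl] at h4
        have h5 := DD_move (Equiv.swap (ja ⟨l j, hp⟩) j) _ _
          (hf4 _ fun c => swap_lab (hja ⟨l j, hp⟩) c) h4
        rwa [Equiv.swap_apply_left] at h5
      · have hp : l j ∈ U.toFinset.filter fun p : ℕ × ℕ => 1 ≤ p.2 :=
          Finset.mem_filter.2 ⟨Multiset.mem_toFinset.2 (hmem j), hpos j⟩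
        have hp' : l k ∈ (U.erase (l j)).toFinset.filter fun p : ℕ × ℕ => 1 ≤ p.2 :=
          Finset.mem_filter.2 ⟨Multiset.mem_toFinset.2 (hmem2 j k h), hpos k⟩
        have h4 := h0 (Sum.inr ⟨⟨l j, hp⟩, ⟨l k, hp'⟩⟩)
        simp only [Sum.elim_inr] at h4
        obtain ⟨h5, h6, h7⟩ := hjb ⟨⟨l j, hp⟩, ⟨l k, hp'⟩⟩
        set J := jb ⟨⟨l j, hp⟩, ⟨l k, hp'⟩⟩ with hJ
        have h8 : l (Equiv.swap J.1 j J.2) = l k := by
          rw [swap_lab h6, h7]
        have h9 := DD_move (Equiv.swap (Equiv.swap J.1 j J.2) k * Equiv.swap J.1 j) _ _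
          (hf4 _ fun c => by
            rw [Equiv.Perm.mul_apply, swap_lab h8, swap_lab h6]) h4
        rw [Equiv.Perm.mul_apply, Equiv.Perm.mul_apply, Equiv.swap_apply_left,
          Equiv.swap_apply_left, Equiv.swap_apply_of_ne_of_ne] at h9
        · exact h9
        · intro h10
          refine h5 ((Equiv.swap J.1 j).injective ?_)
          rw [Equiv.swap_apply_left]
          exact h10
        · exact h

/-- **(W4)** from (T). -/
theorem pullC (hT : TransL) : PullC := by
  intro m mu h2 U x x' hx hU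
  have h := pull_core hT m mu h2 (σ := Fin (U.filter fun p => 0 < p.2).toList.length)
    (fun j => (U.filter fun p => 0 < p.2).toList.get j) x x' hx U ?_ ?_
  · rw [← cc_filter hT mu U]
    exact h
  · intro c
    have h1 : (U.filter fun p => 0 < p.2).toList.get c ∈ U.filter fun p => 0 < p.2 :=
      Multiset.mem_toList.1 (List.get_mem _ _)
    obtain ⟨h3, h4⟩ := Multiset.mem_filter.1 h1
    exact hU _ h3 h4
  · rw [Fin.univ_val_map, List.ofFn_get, Multiset.coe_toList]

end Vale.Agent.P181.O2.H563
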